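import Vale.Agent.P297.Bdl.B1
import Mathlib.LinearAlgebra.Lagrange

/-! # Conic bundles over the affine line are rational (Tsen) -/

open Polynomial

namespace Vale.Agent.P297.H964

/-- A square root of `a` modulo the squarefree polynomial `b`. -/
theorem exists_sq_mod (b : ℂ[X]) (hb : Squarefree b) (a : ℂ[X]) :
    ∃ x : ℂ[X], x.degree < b.degree ∧ b ∣ x ^ 2 - a := by
  classical
  have hb0 : b ≠ 0 := hb.ne_zero
  have hsq : ∀ ρ : ℂ, ∃ r : ℂ, r ^ 2 = a.eval ρ := fun ρ =>
    IsAlgClosed.exists_pow_nat_eq (a.eval ρ) (n := 2) two_pos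
  choose r hr using hsq
  refine ⟨Lagrange.interpolate b.roots.toFinset id r, ?_, ?_⟩
  · refine (Lagrange.degree_interpolate_lt _ (Function.injective_id.injOn)).trans_le ?_
    rw [degree_eq_natDegree hb0]
    exact_mod_cast (Multiset.toFinset_card_le _).trans (card_roots' b)
  · set G : ℂ[X] := (Lagrange.interpolate b.roots.toFinset id r) ^ 2 - a with hG
    by_cases hG0 : G = 0
    · rw [hG0]; exact dvd_zero b
    apply (IsAlgClosed.splits b).dvd_of_roots_le_roots hb0
    rw [Multiset.le_iff_subset (nodup_roots (PerfectField.separable_iff_squarefree.2 hb))]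
    intro ρ hρ
    rw [mem_roots hG0, IsRoot, hG]
    have h1 := Lagrange.eval_interpolate_at_node (s := b.roots.toFinset) (v := id) r
      (Function.injective_id.injOn) (Multiset.mem_toFinset.2 hρ)
    simp only [id] at h1
    simp only [eval_sub, eval_pow]
    rw [h1, hr, sub_self]

/-- Every conic `x² = a y² + b z²` over `ℂ[X]` has a nontrivial solution. -/
theorem legendre (a b : ℂ[X]) (ha : a ≠ 0) (hb : b ≠ 0) :
    ∃ x y z : ℂ[X], ¬ (x = 0 ∧ y = 0 ∧ z = 0) ∧ x ^ 2 = a * y ^ 2 + b * z ^ 2 := by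
  induction hn : a.natDegree + b.natDegree using Nat.strong_induction_on generalizing a b with
  | _ n ih =>
    wlog hab : a.natDegree ≤ b.natDegree generalizing a b with H
    · obtain ⟨x, y, z, h1, h2⟩ := H b a hb ha (by rw [← hn, add_comm]) (by omega)
      refine ⟨x, z, y, ?_, ?_⟩
      · rintro ⟨h3, h4, h5⟩
        exact h1 ⟨h3, h5, h4⟩
      · rw [h2]; ring
    · by_cases hs : Squarefree b
      · by_cases hb1 : b.natDegree = 0
        · obtain ⟨β, rfl⟩ := natDegree_eq_zero.1 hb1
          obtain ⟨r, hr⟩ := IsAlgClosed.exists_pow_nat_eq β (n := 2) two_pos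
          refine ⟨C r, 0, 1, ?_, ?_⟩
          · rintro ⟨-, -, h⟩
            exact one_ne_zero h
          · rw [← hr, map_pow]; ring
        · obtain ⟨x0, hx0, V, hV⟩ := exists_sq_mod b hs a
          by_cases hV0 : V = 0
          · refine ⟨x0, 1, 0, ?_, ?_⟩
            · rintro ⟨-, h, -⟩
              exact one_ne_zero h
            · rw [hV0, mul_zero] at hV
              linear_combination hV
          · have hx0' : x0.natDegree < b.natDegree := by
              by_cases h0 : x0 = 0
              · rw [h0, natDegree_zero]; omega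
              · exact (natDegree_lt_natDegree_iff h0).2 hx0
            have hdeg : V.natDegree < b.natDegree := by
              have h1 : (b * V).natDegree = b.natDegree + V.natDegree := natDegree_mul hb hV0
              rw [← hV] at h1
              have h2 := natDegree_sub_le (x0 ^ 2) a
              have h3 := natDegree_pow_le (p := x0) (n := 2)
              rcases max_choice (x0 ^ 2).natDegree a.natDegree with h | h <;> rw [h] at h2 <;> omega
            obtain ⟨x', y', z', hne, heq⟩ := ih _ (by omega) a V ha hV0 rfl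
            by_cases hz' : z' = 0
            · refine ⟨x', y', 0, ?_, ?_⟩
              · rintro ⟨h1, h2, -⟩
                exact hne ⟨h1, h2, hz'⟩
              · rw [heq, hz']; ring
            · refine ⟨x0 * x' + a * y', x' + x0 * y', V * z', ?_, ?_⟩
              · rintro ⟨-, -, h⟩
                exact (mul_ne_zero hV0 hz') h
              · linear_combination (x0 ^ 2 - a) * heq + V * z' ^ 2 * hV
      · unfold Squarefree at hs
        push Not at hs
        obtain ⟨x, ⟨y, hy⟩, hx⟩ := hs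
        have hx0 : x ≠ 0 := by
          rintro rfl
          apply hb
          rw [hy]; ring
        have hy0 : y ≠ 0 := by
          rintro rfl
          apply hb
          rw [hy]; ring
        have h1 : x.natDegree ≠ 0 := by
          intro h0
          rw [natDegree_eq_zero] at h0
          obtain ⟨c, hc⟩ := h0
          apply hx
          rw [← hc, isUnit_C, isUnit_iff_ne_zero]
          rintro rfl
          apply hx0
          rw [← hc, map_zero]
        have h2 : y.natDegree < b.natDegree := by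
          rw [hy, natDegree_mul (mul_ne_zero hx0 hx0) hy0, natDegree_mul hx0 hx0]
          omega
        obtain ⟨x', y', z', hne, heq⟩ := ih _ (by omega) a y ha hy0 rfl
        refine ⟨x * x', x * y', z', ?_, ?_⟩
        · rintro ⟨h3, h4, h5⟩
          exact hne ⟨(mul_eq_zero.1 h3).resolve_left hx0, (mul_eq_zero.1 h4).resolve_left hx0, h5⟩
        · rw [hy, mul_pow, heq]; ring

section Field

open IntermediateField

variable {K : Type} [Field K] [Algebra ℂ K]

/-- An element of `ℂ(u)` as a fraction. -/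
theorem exists_frac_simple {u a : K} (ha : a ∈ ℂ⟮u⟯) :
    ∃ p q : ℂ[X], aeval u q ≠ 0 ∧ a = aeval u p / aeval u q := by
  rw [IntermediateField.mem_adjoin_simple_iff] at ha
  obtain ⟨r, s, h⟩ := ha
  by_cases hs : aeval u s = 0
  · refine ⟨0, 1, by simp, ?_⟩
    rw [h, hs]; simp
  · exact ⟨r, s, hs, h⟩

/-- Tsen's theorem for diagonal conics over `ℂ(u)`. -/
theorem legendre_field {u α β : K} (hu : Transcendental ℂ u) (hα : α ∈ ℂ⟮u⟯) (hβ : β ∈ ℂ⟮u⟯)
    (hα0 : α ≠ 0) (hβ0 : β ≠ 0) :
    ∃ x ∈ ℂ⟮u⟯, ∃ y ∈ ℂ⟮u⟯, ∃ z ∈ ℂ⟮u⟯, ¬ (x = 0 ∧ y = 0 ∧ z = 0) ∧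
      x ^ 2 = α * y ^ 2 + β * z ^ 2 := by
  obtain ⟨p, q, hq, rfl⟩ := exists_frac_simple hα
  obtain ⟨p', q', hq', rfl⟩ := exists_frac_simple hβ
  have hinj : ∀ r : ℂ[X], aeval u r = 0 → r = 0 := by
    intro r hr
    by_contra h0
    exact hu ⟨r, h0, hr⟩
  have hmem : ∀ r : ℂ[X], aeval u r ∈ ℂ⟮u⟯ := fun r => Vale.Agent.P297.aeval_mem_adjoin_simple u r
  have hp : p ≠ 0 := by
    rintro rfl
    apply hα0; simp
  have hp' : p' ≠ 0 := by
    rintro rfl
    apply hβ0; simp
  have hq0 : q ≠ 0 := by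
    rintro rfl
    apply hq; simp
  have hq0' : q' ≠ 0 := by
    rintro rfl
    apply hq'; simp
  obtain ⟨x, y, z, hne, h⟩ := legendre (p * q) (p' * q') (mul_ne_zero hp hq0) (mul_ne_zero hp' hq0')
  refine ⟨aeval u x, hmem x, aeval u (q * y), hmem _, aeval u (q' * z), hmem _, ?_, ?_⟩
  · rintro ⟨h1, h2, h3⟩
    exact hne ⟨hinj _ h1, (mul_eq_zero.1 (hinj _ h2)).resolve_left hq0,
      (mul_eq_zero.1 (hinj _ h3)).resolve_left hq0'⟩
  · have h1 := congrArg (aeval u) h
    simp only [map_mul, map_pow, map_add] at h1 ⊢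
    rw [h1]
    field_simp

theorem notMem_of_indep {u v : K} (huv : AlgebraicIndependent ℂ ![u, v]) : v ∉ ℂ⟮u⟯ := by
  intro hv
  obtain ⟨p, q, hq, rfl⟩ := exists_frac_simple hv
  set v := aeval u p / aeval u q with hvdef
  let P : MvPolynomial (Fin 2) ℂ := aeval (MvPolynomial.X 0) q * MvPolynomial.X 1 -
    aeval (MvPolynomial.X 0) p
  have hP : MvPolynomial.aeval ![u, v] P = 0 := by
    simp only [P, map_sub, map_mul, MvPolynomial.aeval_X, ← Polynomial.aeval_algHom_apply]
    simp only [Matrix.cons_val_zero, Matrix.cons_val_one]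
    rw [hvdef, mul_div_cancel₀ _ hq, sub_self]
  have hP0 : P = 0 := (algebraicIndependent_iff.1 huv) P hP
  have h2 : ∀ t : ℂ, q * C t - p = 0 := by
    intro t
    have h3 := congrArg (MvPolynomial.aeval ![(X : ℂ[X]), C t]) hP0
    simp only [P, map_sub, map_mul, MvPolynomial.aeval_X, ← Polynomial.aeval_algHom_apply,
      map_zero] at h3
    simpa using h3
  have h3 := h2 0
  have h4 := h2 1
  apply hq
  have h5 : q = 0 := by
    simp only [map_zero, map_one] at h3 h4
    linear_combination h4 - h3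
  rw [h5, map_zero]

theorem transcendental_of_indep {u v : K} (huv : AlgebraicIndependent ℂ ![u, v]) :
    Transcendental ℂ u := huv.transcendental 0

/-- **Tsen.** The field of a nondegenerate conic over `ℂ(u)` is purely transcendental. -/
theorem exists_conic_param {u v z a b c : K} (huv : AlgebraicIndependent ℂ ![u, v])
    (ha : a ∈ ℂ⟮u⟯) (hb : b ∈ ℂ⟮u⟯) (hc : c ∈ ℂ⟮u⟯) (hd : b ^ 2 - 4 * a * c ≠ 0)
    (h : z ^ 2 = a * v ^ 2 + b * v + c) :
    ∃ τ : K, IntermediateField.adjoin ℂ {u, τ} = IntermediateField.adjoin ℂ {u, v, z} := by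
  have hu := transcendental_of_indep huv
  have hvL := notMem_of_indep huv
  haveI : CharZero K := charZero_of_injective_algebraMap (algebraMap ℂ K).injective
  set F₀ := IntermediateField.adjoin ℂ ({u, v, z} : Set K) with hF₀
  have huF : u ∈ F₀ := IntermediateField.subset_adjoin _ _ (by simp)
  have hvF : v ∈ F₀ := IntermediateField.subset_adjoin _ _ (by simp)
  have hzF : z ∈ F₀ := IntermediateField.subset_adjoin _ _ (by simp)
  have hL : ℂ⟮u⟯ ≤ F₀ := by
    rw [IntermediateField.adjoin_simple_le_iff]; exact huF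
  have h2F : (2 : K) ∈ F₀ := ofNat_mem F₀ 2
  have crit : ∀ τ ∈ F₀, v ∈ IntermediateField.adjoin ℂ {u, τ} →
      z ∈ IntermediateField.adjoin ℂ {u, τ} → IntermediateField.adjoin ℂ {u, τ} = F₀ := by
    intro τ hτ hv hz
    apply le_antisymm
    · rw [IntermediateField.adjoin_le_iff]
      rintro a (rfl | rfl)
      · exact huF
      · exact hτ
    · rw [hF₀, IntermediateField.adjoin_le_iff]
      rintro a (rfl | rfl | rfl)
      · exact IntermediateField.subset_adjoin _ _ (by simp)
      · exact hv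
      · exact hz
  have hLτ : ∀ τ : K, ℂ⟮u⟯ ≤ IntermediateField.adjoin ℂ {u, τ} := by
    intro τ
    rw [IntermediateField.adjoin_simple_le_iff]
    exact IntermediateField.subset_adjoin _ _ (by simp)
  by_cases ha0 : a = 0
  · have hb0 : b ≠ 0 := by
      rintro rfl
      apply hd; rw [ha0]; ring
    refine ⟨z, crit z hzF ?_ (IntermediateField.subset_adjoin _ _ (by simp))⟩
    have hv : v = (z ^ 2 - c) / b := by
      rw [eq_div_iff hb0, h, ha0]; ring
    rw [hv]
    exact div_mem (sub_mem (pow_mem (IntermediateField.subset_adjoin _ _ (by simp)) 2)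
      (hLτ _ hc)) (hLτ _ hb)
  · have h2 : (2 : K) ≠ 0 := two_ne_zero
    set V := 2 * a * v + b with hV
    have hVF : V ∈ F₀ := add_mem (mul_mem (mul_mem h2F (hL ha)) hvF) (hL hb)
    have hVv : v = (V - b) / (2 * a) := by
      rw [hV]; field_simp; ring
    have hVeq : V ^ 2 = a * (2 * z) ^ 2 + (b ^ 2 - 4 * a * c) := by
      rw [hV]; linear_combination - 4 * a * h
    have hL2 : (2 : K) ∈ ℂ⟮u⟯ := ofNat_mem _ 2
    have hL4 : (4 : K) ∈ ℂ⟮u⟯ := ofNat_mem _ 4
    have hΔ : b ^ 2 - 4 * a * c ∈ ℂ⟮u⟯ :=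
      sub_mem (pow_mem hb 2) (mul_mem (mul_mem hL4 ha) hc)
    obtain ⟨x, hx, y, hy, w, hw, hne, heq⟩ := legendre_field hu ha hΔ ha0 hd
    -- it is enough to express `V` and `2 z`
    have crit2 : ∀ τ ∈ F₀, V ∈ IntermediateField.adjoin ℂ {u, τ} →
        2 * z ∈ IntermediateField.adjoin ℂ {u, τ} → IntermediateField.adjoin ℂ {u, τ} = F₀ := by
      intro τ hτ h1 h3
      have h2m : (2 : K) ∈ IntermediateField.adjoin ℂ {u, τ} := ofNat_mem _ 2
      refine crit τ hτ ?_ ?_
      · rw [hVv]
        exact div_mem (sub_mem h1 (hLτ _ hb)) (mul_mem h2m (hLτ _ ha))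
      · have h4 : z = (2 * z) / 2 := by field_simp
        rw [h4]
        exact div_mem h3 h2m
    by_cases hw0 : w = 0
    · have hy0 : y ≠ 0 := by
        rintro rfl
        rw [hw0] at heq
        have h3 : x ^ 2 = 0 := by rw [heq]; ring
        exact hne ⟨pow_eq_zero_iff two_ne_zero |>.1 h3, rfl, hw0⟩
      have hx0 : x ≠ 0 := by
        rintro rfl
        rw [hw0] at heq
        have h3 : a * y ^ 2 = 0 := by linear_combination - heq
        rcases mul_eq_zero.1 h3 with h4 | h4
        · exact ha0 h4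
        · exact hy0 (pow_eq_zero_iff two_ne_zero |>.1 h4)
      set r := x / y with hr
      have hr0 : r ≠ 0 := div_ne_zero hx0 hy0
      have hra : r ^ 2 = a := by
        rw [hr, div_pow, heq, hw0]
        field_simp
        ring
      have hrL : r ∈ ℂ⟮u⟯ := div_mem hx hy
      set τ := V - r * (2 * z) with hτ
      have hprod : τ * (V + r * (2 * z)) = b ^ 2 - 4 * a * c := by
        rw [hτ, ← sub_eq_iff_eq_add'.2 hVeq, ← hra]
        ring
      have hτ0 : τ ≠ 0 := by
        intro h0
        rw [h0, zero_mul] at hprod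
        exact hd hprod.symm
      have hτF : τ ∈ F₀ := sub_mem hVF (mul_mem (hL hrL) (mul_mem h2F hzF))
      have hτm : τ ∈ IntermediateField.adjoin ℂ {u, τ} :=
        IntermediateField.subset_adjoin _ _ (by simp)
      have h2m : (2 : K) ∈ IntermediateField.adjoin ℂ {u, τ} := ofNat_mem _ 2
      have hsum : V + r * (2 * z) = (b ^ 2 - 4 * a * c) / τ := by
        rw [eq_div_iff hτ0, mul_comm]; exact hprod
      refine ⟨τ, crit2 τ hτF ?_ ?_⟩
      · have h3 : V = (τ + (b ^ 2 - 4 * a * c) / τ) / 2 := by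
          rw [← hsum, hτ]; ring
        rw [h3]
        exact div_mem (add_mem hτm (div_mem (hLτ _ hΔ) hτm)) h2m
      · have h3 : 2 * z = ((b ^ 2 - 4 * a * c) / τ - τ) / (2 * r) := by
          rw [← hsum, hτ]; field_simp; ring
        rw [h3]
        exact div_mem (sub_mem (div_mem (hLτ _ hΔ) hτm) hτm) (mul_mem h2m (hLτ _ hrL))
    · set V₀ := x / w with hV₀
      set Z₀ := y / w with hZ₀
      have hV₀L : V₀ ∈ ℂ⟮u⟯ := div_mem hx hw
      have hZ₀L : Z₀ ∈ ℂ⟮u⟯ := div_mem hy hw
      have heq₀ : V₀ ^ 2 = a * Z₀ ^ 2 + (b ^ 2 - 4 * a * c) := by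
        rw [hV₀, hZ₀, div_pow, div_pow, heq]
        field_simp
      have hVV : V - V₀ ≠ 0 := by
        intro h0
        apply hvL
        rw [hVv, sub_eq_zero.1 h0]
        exact div_mem (sub_mem hV₀L hb) (mul_mem hL2 ha)
      set τ := (2 * z - Z₀) / (V - V₀) with hτ
      have hZ : 2 * z = Z₀ + τ * (V - V₀) := by
        rw [hτ, div_mul_cancel₀ _ hVV]; ring
      have hlin : V + V₀ = a * τ * (2 * Z₀ + τ * (V - V₀)) := by
        apply mul_left_cancel₀ hVV
        have h3 : (V - V₀) * (V + V₀) = a * ((2 * z) ^ 2 - Z₀ ^ 2) := by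
          linear_combination hVeq - heq₀
        rw [h3, hZ]; ring
      have hden : 1 - a * τ ^ 2 ≠ 0 := by
        intro h0
        have h1 : a * τ ^ 2 = 1 := (sub_eq_zero.1 h0).symm
        have h3 : V₀ = a * τ * Z₀ := by
          have h4 : 2 * V₀ = 2 * (a * τ * Z₀) := by
            linear_combination hlin + (V - V₀) * h1
          exact mul_left_cancel₀ h2 h4
        apply hd
        have h5 : V₀ ^ 2 = a * Z₀ ^ 2 := by
          rw [h3]; linear_combination a * Z₀ ^ 2 * h1
        linear_combination - heq₀ + h5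
      have hτF : τ ∈ F₀ :=
        div_mem (sub_mem (mul_mem h2F hzF) (hL hZ₀L)) (sub_mem hVF (hL hV₀L))
      have hτm : τ ∈ IntermediateField.adjoin ℂ {u, τ} :=
        IntermediateField.subset_adjoin _ _ (by simp)
      have h2m : (2 : K) ∈ IntermediateField.adjoin ℂ {u, τ} := ofNat_mem _ 2
      have hVm : V ∈ IntermediateField.adjoin ℂ {u, τ} := by
        have h3 : V = (2 * a * τ * Z₀ - (a * τ ^ 2 + 1) * V₀) / (1 - a * τ ^ 2) := by
          rw [eq_div_iff hden]; linear_combination hlin
        rw [h3]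
        exact div_mem (sub_mem (mul_mem (mul_mem (mul_mem h2m (hLτ _ ha)) hτm) (hLτ _ hZ₀L))
          (mul_mem (add_mem (mul_mem (hLτ _ ha) (pow_mem hτm 2)) (one_mem _)) (hLτ _ hV₀L)))
          (sub_mem (one_mem _) (mul_mem (hLτ _ ha) (pow_mem hτm 2)))
      refine ⟨τ, crit2 τ hτF hVm ?_⟩
      rw [hZ]
      exact add_mem (hLτ _ hZ₀L) (mul_mem hτm (sub_mem hVm (hLτ _ hV₀L)))

end Field

end Vale.Agent.P297.H964
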