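import Vale.Agent.P297.H839.Defs

/-! # Functions of conic type -/

namespace Vale.Agent.P297.H964

open IntermediateField

/-- The function `h` on the plane with function field `F` is of conic type: up to the square of a
nonzero element `e` of `F` it is a polynomial `a v² + b v + c` of degree at most two in `v`, with
nonzero discriminant and coefficients in `ℂ(u)`, for some generators `u`, `v` of `F`. -/
def IsConic {N : Type} [Field N] [Algebra ℂ N] (F : IntermediateField ℂ N) (h : N) : Prop :=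
  ∃ u v e a b c : N, AlgebraicIndependent ℂ ![u, v] ∧ F = IntermediateField.adjoin ℂ {u, v} ∧
    e ∈ F ∧ e ≠ 0 ∧ a ∈ ℂ⟮u⟯ ∧ b ∈ ℂ⟮u⟯ ∧ c ∈ ℂ⟮u⟯ ∧ b ^ 2 - 4 * a * c ≠ 0 ∧
    h * e ^ 2 = a * v ^ 2 + b * v + c

end Vale.Agent.P297.H964
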