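import Vale.Agent.P297.H964.Tsen
import Vale.Agent.P297.H964.ConicDefs
import Vale.Agent.P297.H839.Swap
import Vale.Agent.P297.H839.Points
import Vale.Agent.P297.H839.Twin

/-! # Double planes of conic type are rational -/

set_option linter.style.haveILetI false

open CategoryTheory AlgebraicGeometry IntermediateField Polynomial

namespace Vale.Agent.P297.H964

open Vale.Agent.P297 Vale.Agent.P297.H839

variable {N : Type} [Field N] [Algebra ℂ N]

/-- The field of a conic bundle over the line is purely transcendental. -/
theorem isRational_conic {u v z a b c : N} (huv : AlgebraicIndependent ℂ ![u, v])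
    (ha : a ∈ ℂ⟮u⟯) (hb : b ∈ ℂ⟮u⟯) (hc : c ∈ ℂ⟮u⟯) (hd : b ^ 2 - 4 * a * c ≠ 0)
    (h : z ^ 2 = a * v ^ 2 + b * v + c) : IsRational (IntermediateField.adjoin ℂ {u, v, z}) := by
  obtain ⟨τ, hτ⟩ := exists_conic_param huv ha hb hc hd h
  have hr : Set.range ![u, τ] = {u, τ} := range_pair u τ
  refine isRational_of_gens huv _ ![u, τ] (by rw [hr, hτ]) ?_
  intro i
  have hmem : ∀ i, ![u, v] i ∈ IntermediateField.adjoin ℂ {u, v, z} := by
    intro i
    fin_cases i
    · exact IntermediateField.subset_adjoin _ _ (by simp)
    · exact IntermediateField.subset_adjoin _ _ (by simp)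
  exact isAlgebraic_mem _ _ (hmem i)

/-- A double plane of conic type is rational. -/
theorem IsConic.isRational {F : IntermediateField ℂ N} {z : N} (h : IsConic F (z ^ 2)) :
    IsRational (F ⊔ IntermediateField.adjoin ℂ {z}) := by
  obtain ⟨u, v, e, a, b, c, huv, rfl, he, he0, ha, hb, hc, hd, heq⟩ := h
  have h1 := isRational_conic (z := z * e) huv ha hb hc hd (by rw [mul_pow, heq])
  have h2 : IntermediateField.adjoin ℂ {u, v} ⊔ IntermediateField.adjoin ℂ {z} =
      IntermediateField.adjoin ℂ {u, v, z * e} := by
    apply le_antisymm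
    · refine sup_le (IntermediateField.adjoin.mono _ _ _ ?_) ?_
      · rintro a (rfl | rfl) <;> simp
      · rw [IntermediateField.adjoin_le_iff]
        intro y hy
        have h3 : IntermediateField.adjoin ℂ {u, v} ≤
            IntermediateField.adjoin ℂ {u, v, z * e} := by
          apply IntermediateField.adjoin.mono
          rintro a (rfl | rfl) <;> simp
        have h4 : z * e ∈ IntermediateField.adjoin ℂ {u, v, z * e} :=
          IntermediateField.subset_adjoin _ _ (by simp)
        have h5 : y = z * e / e := by
          rw [mul_div_cancel_right₀ _ he0, Set.mem_singleton_iff.1 hy]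
        rw [h5]
        exact div_mem h4 (h3 he)
    · rw [IntermediateField.adjoin_le_iff]
      have h3 : IntermediateField.adjoin ℂ {u, v} ≤
          IntermediateField.adjoin ℂ {u, v} ⊔ IntermediateField.adjoin ℂ {z} := le_sup_left
      have h4 : z ∈ IntermediateField.adjoin ℂ {u, v} ⊔ IntermediateField.adjoin ℂ {z} :=
        (le_sup_right : IntermediateField.adjoin ℂ {z} ≤ _)
          (IntermediateField.mem_adjoin_simple_self ℂ _)
      rintro a (rfl | rfl | rfl)
      · exact h3 (IntermediateField.subset_adjoin _ _ (by simp))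
      · exact h3 (IntermediateField.subset_adjoin _ _ (by simp))
      · exact mul_mem h4 (h3 he)
  rw [h2]
  exact h1

/-- **Twins of conic type.** -/
theorem twins_conic {B : Type} [Field B] [Algebra ℂ B] (β : B →ₐ[ℂ] N)
    (σ : B ≃ₐ[ℂ] B) (hσ : ∀ c, σ (σ c) = c) (b : B) (z w : N) (hz : z ^ 2 = β b)
    (hw : w ^ 2 = β (σ b)) (h1 : IsConic β.fieldRange (β b))
    (h2 : IsConic ((IntermediateField.fixedField (Subgroup.zpowers σ)).map β) (β (b * σ b))) :
    PointsEquivalent ((IntermediateField.fixedField (Subgroup.zpowers σ)).map β ⊔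
      IntermediateField.adjoin ℂ {z + w} : IntermediateField ℂ N) := by
  intro S _ f _ hS x y
  refine twins β σ hσ b z w hz hw ?_ ?_ f hS x y
  · rw [← hz] at h1
    exact h1.isRational
  · have h3 : (z * w) ^ 2 = β (b * σ b) := by rw [mul_pow, hz, hw, map_mul]
    rw [← h3] at h2
    exact h2.isRational

end Vale.Agent.P297.H964
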