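import Vale.Agent.P297.H964.Conic
import Vale.Agent.P297.H839.Crit

/-! # Bidouble covers -/

set_option linter.style.haveILetI false
set_option linter.unusedSectionVars false

open CategoryTheory AlgebraicGeometry IntermediateField Polynomial

namespace Vale.Agent.P297.H964

open Vale.Agent.P297 Vale.Agent.P297.H839

section

variable {S : Scheme.{0}} {f : S ⟶ Spec (.of ℂ)} [IsProper f] {C : Type} [CommRing C] [Algebra ℂ C]
  [Algebra.FiniteType ℂ C] {j : Spec (.of C) ⟶ S}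
  {hj : j ≫ f = Spec.map (CommRingCat.ofHom (algebraMap ℂ C))}

theorem klein_good {M : Type} [Field M] [Algebra ℂ M] (F : IntermediateField ℂ M) (z w : M)
    (hz : z ^ 2 ∈ F) (hw : w ^ 2 ∈ F) (hz0 : z ≠ 0)
    (htop : F ⊔ IntermediateField.adjoin ℂ {z} ⊔ IntermediateField.adjoin ℂ {w} = ⊤)
    (h1 : IsRational (F ⊔ IntermediateField.adjoin ℂ {z}))
    (h2 : IsRational (F ⊔ IntermediateField.adjoin ℂ {w}))
    (h3 : IsRational (F ⊔ IntermediateField.adjoin ℂ {z * w})) (ι : C →ₐ[ℂ] M) :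
    Finsupp.single ι (2 : ℤ) ∈ Good f j hj (Rat f) M := by
  have two : Finsupp.single ι (2 : ℤ) =
      Finsupp.single ι (1 : ℤ) + Finsupp.single ι (1 : ℤ) := by
    rw [← Finsupp.single_add]
    rfl
  have hF1 : F ≤ F ⊔ IntermediateField.adjoin ℂ {z} := le_sup_left
  have hF2 : F ≤ F ⊔ IntermediateField.adjoin ℂ {w} := le_sup_left
  have hF3 : F ≤ F ⊔ IntermediateField.adjoin ℂ {z * w} := le_sup_left
  have hz1 : z ∈ F ⊔ IntermediateField.adjoin ℂ {z} :=
    (le_sup_right : IntermediateField.adjoin ℂ {z} ≤ _)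
      (IntermediateField.mem_adjoin_simple_self ℂ _)
  have hw2 : w ∈ F ⊔ IntermediateField.adjoin ℂ {w} :=
    (le_sup_right : IntermediateField.adjoin ℂ {w} ≤ _)
      (IntermediateField.mem_adjoin_simple_self ℂ _)
  have hzw3 : z * w ∈ F ⊔ IntermediateField.adjoin ℂ {z * w} :=
    (le_sup_right : IntermediateField.adjoin ℂ {z * w} ≤ _)
      (IntermediateField.mem_adjoin_simple_self ℂ _)
  have htop2 : F ⊔ IntermediateField.adjoin ℂ {w} ⊔ IntermediateField.adjoin ℂ {z} = ⊤ := by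
    rw [sup_right_comm]; exact htop
  have htop3 : F ⊔ IntermediateField.adjoin ℂ {z * w} ⊔ IntermediateField.adjoin ℂ {z} = ⊤ := by
    rw [eq_top_iff, ← htop]
    have hz' : z ∈ F ⊔ IntermediateField.adjoin ℂ {z * w} ⊔ IntermediateField.adjoin ℂ {z} :=
      (le_sup_right : IntermediateField.adjoin ℂ {z} ≤ _)
        (IntermediateField.mem_adjoin_simple_self ℂ _)
    refine sup_le (sup_le (hF3.trans le_sup_left) le_sup_right) ?_
    rw [IntermediateField.adjoin_le_iff]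
    intro y hy
    have h4 : y = z * w / z := by
      rw [mul_div_cancel_left₀ _ hz0, Set.mem_singleton_iff.1 hy]
    rw [h4]
    exact div_mem ((le_sup_left : F ⊔ IntermediateField.adjoin ℂ {z * w} ≤ _) hzw3) hz'
  rcases part_rational (f := f) (j := j) (hj := hj) _ h1 w (hF1 hw) htop with h | ⟨τ₁, hτ₁, hw₁, g₁⟩
  · rw [two]; exact add_mem (h ι) (h ι)
  rcases part_rational (f := f) (j := j) (hj := hj) _ h2 z (hF2 hz) htop2 with
    h | ⟨τ₂, hτ₂, hz₂, g₂⟩
  · rw [two]; exact add_mem (h ι) (h ι)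
  rcases part_rational (f := f) (j := j) (hj := hj) _ h3 z (hF3 hz) htop3 with
    h | ⟨τ₃, hτ₃, hz₃, g₃⟩
  · rw [two]; exact add_mem (h ι) (h ι)
  have hcomm : ∀ a : M, τ₃ a = τ₂ (τ₁ a) := by
    have hF : ∀ a ∈ F, τ₃ a = τ₂ (τ₁ a) := by
      intro a ha
      rw [hτ₃ a (hF3 ha), hτ₁ a (hF1 ha), hτ₂ a (hF2 ha)]
    have hz' : τ₃ z = τ₂ (τ₁ z) := by rw [hz₃, hτ₁ z hz1, hz₂]
    have hw' : τ₃ w = τ₂ (τ₁ w) := by
      have h4 : τ₃ (z * w) = z * w := hτ₃ _ hzw3
      rw [map_mul, hz₃] at h4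
      have h5 : τ₃ w = - w := by
        apply mul_left_cancel₀ hz0
        linear_combination - h4
      rw [h5, hw₁, map_neg, hτ₂ w hw2]
    have h5 := agree_on_sup τ₃.toAlgHom (τ₂.toAlgHom.comp τ₁.toAlgHom)
      (F ⊔ IntermediateField.adjoin ℂ {z}) w (agree_on_sup τ₃.toAlgHom
        (τ₂.toAlgHom.comp τ₁.toAlgHom) F z hF hz') hw'
    intro a
    exact h5 a (by rw [htop]; trivial)
  have k1 := g₁ ι
  have k2 := g₂ (τ₁.toAlgHom.comp ι)
  have k3 := g₃ ι
  have h8 : τ₃.toAlgHom.comp ι = τ₂.toAlgHom.comp (τ₁.toAlgHom.comp ι) :=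
    AlgHom.ext fun a => hcomm (ι a)
  rw [h8] at k3
  have h10 := add_mem (sub_mem k1 k2) k3
  rw [two]
  have h11 : Finsupp.single ι (1 : ℤ) + Finsupp.single ι (1 : ℤ) =
      Finsupp.single ι (1 : ℤ) + Finsupp.single (τ₁.toAlgHom.comp ι) (1 : ℤ) -
      (Finsupp.single (τ₁.toAlgHom.comp ι) (1 : ℤ) +
        Finsupp.single (τ₂.toAlgHom.comp (τ₁.toAlgHom.comp ι)) (1 : ℤ)) +
      (Finsupp.single ι (1 : ℤ) +
        Finsupp.single (τ₂.toAlgHom.comp (τ₁.toAlgHom.comp ι)) (1 : ℤ)) := by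
    abel
  rw [h11]
  exact h10

end

/-- **Bidouble covers.** -/
theorem klein {M : Type} [Field M] [Algebra ℂ M] (F : IntermediateField ℂ M) (z w : M)
    (hz : z ^ 2 ∈ F) (hw : w ^ 2 ∈ F) (hz0 : z ≠ 0)
    (htop : F ⊔ IntermediateField.adjoin ℂ {z} ⊔ IntermediateField.adjoin ℂ {w} = ⊤)
    (h1 : IsRational (F ⊔ IntermediateField.adjoin ℂ {z}))
    (h2 : IsRational (F ⊔ IntermediateField.adjoin ℂ {w}))
    (h3 : IsRational (F ⊔ IntermediateField.adjoin ℂ {z * w})) : PointsEquivalent M := by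
  intro S _ f _ hS x y
  have hD : IsDouble M := by
    refine ⟨F ⊔ IntermediateField.adjoin ℂ {z}, w, h1, ?_, adjoin_union_singleton _ w htop⟩
    exact (le_sup_left : F ≤ _) hw
  refine half_double f hS hD (Rat f) le_rfl ?_ x y
  intro x y
  obtain ⟨U, hU, hne, hi⟩ := exists_chart f hS
  letI := chartAlg f hU
  haveI := chart_finiteType f hU
  obtain ⟨i, hi, hfrac⟩ := hi
  refine global_of_good f hU 2 (Rat f) le_rfl i hi ?_ ?_ x y
  · intro y
    have h4 := exists_poly_of_algebraic i.toRingHom hi hfrac (RingHom.id M) y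
      ⟨X - Polynomial.C y, X_sub_C_ne_zero y, by simp⟩
    rw [RingHom.id_comp] at h4
    exact h4
  · exact klein_good F z w hz hw hz0 htop h1 h2 h3 i

/-- **Bidouble planes of conic type.** -/
theorem klein_sub {N : Type} [Field N] [Algebra ℂ N] (F : IntermediateField ℂ N) (z w : N)
    (hz : z ^ 2 ∈ F) (hw : w ^ 2 ∈ F) (hz0 : z ≠ 0)
    (h1 : IsRational (F ⊔ IntermediateField.adjoin ℂ {z}))
    (h2 : IsRational (F ⊔ IntermediateField.adjoin ℂ {w}))
    (h3 : IsRational (F ⊔ IntermediateField.adjoin ℂ {z * w})) :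
    PointsEquivalent (F ⊔ IntermediateField.adjoin ℂ {z} ⊔ IntermediateField.adjoin ℂ {w} :
      IntermediateField ℂ N) := by
  generalize hM : F ⊔ IntermediateField.adjoin ℂ {z} ⊔ IntermediateField.adjoin ℂ {w} = M
  have hFM : F ≤ M := by rw [← hM]; exact le_sup_left.trans le_sup_left
  have hzM : z ∈ M := by
    rw [← hM]
    exact (le_sup_right.trans le_sup_left : IntermediateField.adjoin ℂ {z} ≤ _)
      (IntermediateField.mem_adjoin_simple_self ℂ _)
  have hwM : w ∈ M := by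
    rw [← hM]
    exact (le_sup_right : IntermediateField.adjoin ℂ {w} ≤ _)
      (IntermediateField.mem_adjoin_simple_self ℂ _)
  obtain ⟨F', hF'⟩ : ∃ F' : IntermediateField ℂ M, F'.map M.val = F :=
    ⟨(IntermediateField.inclusion hFM).fieldRange, by
      ext a
      constructor
      · rintro ⟨b, ⟨c, rfl⟩, rfl⟩
        exact c.2
      · intro ha
        exact ⟨⟨a, hFM ha⟩, ⟨⟨a, ha⟩, rfl⟩, rfl⟩⟩
  have hmapA : ∀ y : M, (IntermediateField.adjoin ℂ {y}).map M.val =
      IntermediateField.adjoin ℂ {(y : N)} := by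
    intro y
    rw [IntermediateField.adjoin_map, Set.image_singleton]
    rfl
  have hmem : ∀ y : M, (y : N) ∈ F → y ∈ F' := by
    intro y hy
    rw [← hF'] at hy
    obtain ⟨a, ha, hay⟩ := hy
    have : a = y := Subtype.ext hay
    rwa [← this]
  have hmapS : ∀ y : M, (F' ⊔ IntermediateField.adjoin ℂ {y}).map M.val =
      F ⊔ IntermediateField.adjoin ℂ {(y : N)} := by
    intro y
    rw [IntermediateField.map_sup, hF', hmapA]
  refine klein F' ⟨z, hzM⟩ ⟨w, hwM⟩ (hmem _ hz) (hmem _ hw) ?_ ?_ ?_ ?_ ?_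
  · intro h
    exact hz0 (congrArg Subtype.val h)
  · have h4 : (F' ⊔ IntermediateField.adjoin ℂ {(⟨z, hzM⟩ : M)} ⊔
        IntermediateField.adjoin ℂ {(⟨w, hwM⟩ : M)}).map M.val = M := by
      rw [IntermediateField.map_sup, hmapS, hmapA, hM]
    rw [eq_top_iff]
    intro y _
    obtain ⟨a, ha, hay⟩ := h4.ge y.2
    have : a = y := Subtype.ext hay
    rwa [← this]
  · apply isRational_of_map M.val
    rw [hmapS]; exact h1
  · apply isRational_of_map M.val
    rw [hmapS]; exact h2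
  · apply isRational_of_map M.val
    rw [hmapS]; exact h3

/-- **Bidouble planes of conic type.** -/
theorem klein_conic {N : Type} [Field N] [Algebra ℂ N] (F : IntermediateField ℂ N) (z w : N)
    (hz0 : z ≠ 0) (hz : z ^ 2 ∈ F) (hw : w ^ 2 ∈ F) (h1 : IsConic F (z ^ 2))
    (h2 : IsConic F (w ^ 2)) (h3 : IsConic F ((z * w) ^ 2)) :
    PointsEquivalent (F ⊔ IntermediateField.adjoin ℂ {z} ⊔ IntermediateField.adjoin ℂ {w} :
      IntermediateField ℂ N) :=
  klein_sub F z w hz hw hz0 h1.isRational h2.isRational h3.isRational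

end Vale.Agent.P297.H964
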